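import Vale.Agent.P231.WQ.Glue
import Vale.Agent.P231.Q2.Main

/-!
# P231, stages 2 and 3: the Fubini theorem (degree `d`) in the coordinates of the unit tangent
bundle, for every multiplicity
-/

set_option maxSynthPendingDepth 3
set_option linter.unusedSectionVars false
set_option linter.unusedVariables false

open Bundle Manifold Set Filter Module Topology MeasureTheory
open scoped ContDiff Manifold Topology

namespace Vale.Agent.P231.Q2

noncomputable section

open Vale.Agent.P234 Vale.Agent.P231 Vale.Agent.P231.Fm Vale.Agent.P231.W Vale.Agent.P231.WG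
  Vale.Agent.P231.WR Vale.Agent.P231.WQ

variable {E : Type*} [NormedAddCommGroup E] [NormedSpace ℝ E]
  {M : Type*} [MetricSpace M] [ChartedSpace E M]
  [RiemannianBundle (fun x : M => TangentSpace 𝓘(ℝ, E) x)]
  {e : ∀ x : M, TangentSpace 𝓘(ℝ, E) x → M}
  [FiniteDimensional ℝ E] [IsManifold 𝓘(ℝ, E) ∞ M]
  [IsContMDiffRiemannianBundle 𝓘(ℝ, E) ∞ E (fun x : M => TangentSpace 𝓘(ℝ, E) x)]
  [CompactSpace M] [ConnectedSpace M] [IsRiemannianManifold 𝓘(ℝ, E) M]
  {p : M} {R D : ℝ} (X : Fr e p R) (v0 : UT E M) {d : ℕ}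

/-- the null vector -/
theorem exists_null (F : Facts e) (hD : 0 < D) (hB : InjGE e D)
    (hdiam : ∀ p q : M, dist p q ≤ D) (hL : ∀ v : UT E M, ∃ q : Pr e D, q.v = v)
    (Om : Form (dM E M)) {r : Eu E → ℝ}
    (hrad : ∀ y z : Eu E, (inner ℝ y z : ℝ) = 0 → fderiv ℝ r y z = 0) {x y : Eu E}
    (hx : ‖x‖ < R) (hy : y ≠ 0) :
    ∃ z : Eu E, z ≠ 0 ∧ fderiv ℝ r y z = 0 ∧ iprod ((0, z) : Eu E × Eu E)
      ((Form.pull (bar e D) (map_bar F D) Om).val (cc X v0) (x, y)) = 0 := by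
  set P : Eu E × Eu E → M := fun z => bar e D (cc X v0 z) with hPdef
  have hat : (dM E M).At P (x, y) := map_bar F D (at_cc X v0 (z := (x, y)) hx hy)
  rw [val_bar X v0 F Om (z := (x, y)) hx hy]
  have hn := X.nr_pos (z := (x, y)) hx hy
  obtain ⟨q0, hq0⟩ := hL (cc X v0 (x, y))
  obtain ⟨z', hz'⟩ := B_surj X hx (X.nr (x, y) • vec' q0.w)
  -- radial direction
  have h1 : iprod ((0, y) : Eu E × Eu E) (Om.val P (x, y)) = 0 := by
    have hc : HasDerivAt (fun t : ℝ => ((x, y + t • y) : Eu E × Eu E)) (0, y) 0 := by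
      have h3 : HasDerivAt (fun t : ℝ => t • y) ((1 : ℝ) • y) 0 :=
        (hasDerivAt_id (0 : ℝ)).smul_const y
      rw [one_smul] at h3
      exact (hasDerivAt_const (0 : ℝ) x).prodMk (h3.const_add y)
    refine iprod_of_const Om hat hc (by rw [zero_smul, add_zero]) ?_
    have h4 : ∀ᶠ t in 𝓝 (0 : ℝ), -1 < t := lt_mem_nhds (by norm_num)
    filter_upwards [h4] with t ht
    have h5 : y + t • y = (1 + t) • y := by rw [add_smul, one_smul]
    simp only [hPdef]
    rw [h5, cc_smul X v0 (z := (x, y)) hx hy (t := 1 + t) (by linarith)]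
  -- rotation direction
  have h2 : iprod ((0, z') : Eu E × Eu E) (Om.val P (x, y)) = 0 := by
    have hc : HasDerivAt (fun t : ℝ => ((x, Real.cos t • y + Real.sin t • z') : Eu E × Eu E))
        (0, z') 0 := (hasDerivAt_const (0 : ℝ) x).prodMk (H703.hasDerivAt_circle y z')
    refine iprod_of_const Om hat hc ?_ (Eventually.of_forall fun t => ?_)
    · rw [Real.cos_zero, Real.sin_zero, one_smul, zero_smul, add_zero]
    · simp only [hPdef]
      rw [cc_comb X v0 hx hy (p' := q0) hq0 hz', bar_rv F hD hB hdiam, hq0]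
  set a : ℝ := (inner ℝ y z' : ℝ) / (inner ℝ y y : ℝ) with ha
  have hyy : (inner ℝ y y : ℝ) ≠ 0 := by
    rw [real_inner_self_eq_norm_sq]
    exact pow_ne_zero 2 (norm_ne_zero_iff.2 hy)
  refine ⟨z' - a • y, ?_, ?_, ?_⟩
  · intro h0
    have h3 : z' = a • y := sub_eq_zero.1 h0
    have hL := q0.isL
    rw [hq0] at hL
    have h4 : X.nr (x, y) • vec' q0.w =
        a • (X.nr (x, y) • vec' (cc X v0 (x, y))) := by
      rw [vec'_cc X v0 (z := (x, y)) hx hy, ← hz', h3, map_smul]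
    have h5 : vec' q0.w = a • vec' (cc X v0 (x, y)) := by
      have h6 := congrArg (fun b => (X.nr (x, y))⁻¹ • b) h4
      simp only [smul_smul] at h6
      rw [inv_mul_cancel₀ hn.ne', one_smul] at h6
      rw [h6]
      congr 1
      field_simp
    have h7 := hL.orth
    rw [h5, ip_smul_right', ip_vec', mul_one] at h7
    have h8 := hL.ip_self
    rw [h5, h7, zero_smul] at h8
    have h9 : ip (foot (cc X v0 (x, y))) (0 : E) 0 = 0 :=
      inner_zero_left (𝕜 := ℝ) (E := TangentSpace 𝓘(ℝ, E) (foot (cc X v0 (x, y)))) _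
    rw [h9] at h8
    exact zero_ne_one h8
  · refine hrad _ _ ?_
    rw [inner_sub_right, inner_smul_right, ha, div_mul_cancel₀ _ hyy, sub_self]
  · have h3 : ((0, z' - a • y) : Eu E × Eu E) = (0, z') + (-a) • ((0, y) : Eu E × Eu E) := by
      refine Prod.ext ?_ ?_
      · simp
      · simp [sub_eq_add_neg]
    have h4 : ∀ (v₁ v₂ : Eu E × Eu E) (W : Lam (Eu E × Eu E)),
        iprod (v₁ + v₂) W = iprod v₁ W + iprod v₂ W := fun v₁ v₂ W => iprod_add v₁ v₂ W
    rw [h3, h4, iprod_smul, h1, h2, smul_zero, add_zero]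

/-- THE DATA of the Fubini theorem -/
theorem data (F : Facts e) (hD : 0 < D) (hB : InjGE e D)
    (hdiam : ∀ p q : M, dist p q ≤ D) (hL : ∀ v : UT E M, ∃ q : Pr e D, q.v = v)
    {Om : Form (dM E M)} (hd : Om.d = 0) (h2 : WF.IsDeg Om d) (hev : Even d) (htwo : 2 ≤ d) {r : Eu E → ℝ}
    (hrad : ∀ y z : Eu E, (inner ℝ y z : ℝ) = 0 → fderiv ℝ r y z = 0) :
    Q2.Data d (Metric.ball (0 : Eu E) R) r
      ((KT D (Form.pull (gm e) (map_gm F) Om)).val (cc X v0))
      ((Form.pull (bar e D) (map_bar F D) Om).val (cc X v0))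
      (fun x => Om.val (ef e p) x) where
  ev := hev
  two := htwo
  openU := Metric.isOpen_ball
  smB := contDiffOn_val X v0 _
  smH := contDiffOn_val X v0 _
  dB x hx y hy := by
    have hx' := mem_ball_zero_iff.1 hx
    have hat := at_cc X v0 (z := (x, y)) hx' hy
    rw [← Form.d_val _ hat, d_B0 F D hd, Form.sub_val, val_foot X v0 F Om (z := (x, y)) hx' hy]
  dH x hx y hy := by
    have hat := at_cc X v0 (z := (x, y)) (mem_ball_zero_iff.1 hx) hy
    rw [← Form.d_val _ hat, ← Form.pull_d, hd]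
    have h3 : Form.pull (bar e D) (map_bar F D) (0 : Form (dM E M)) = 0 :=
      map_zero (Form.pullA (bar e D) (map_bar F D))
    rw [h3, Form.zero_val]
  degG x hx := isDeg_of_mem_hom (h2 (at_ef F p x))
  degH x hx y hy :=
    isDeg_of_mem_hom ((WF.IsDeg.pull (map_bar F D) h2)
      (at_cc X v0 (z := (x, y)) (mem_ball_zero_iff.1 hx) hy))
  null x hx y hy := exists_null X v0 F hD hB hdiam hL Om hrad (mem_ball_zero_iff.1 hx) hy

/-- **the Fubini theorem for the fundamental cycle** -/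
theorem II_eq (F : Facts e) (hD : 0 < D) (hB : InjGE e D)
    (hdiam : ∀ p q : M, dist p q ≤ D) (hL : ∀ v : UT E M, ∃ q : Pr e D, q.v = v)
    {Om : Form (dM E M)} (hd : Om.d = 0) (h2 : WF.IsDeg Om d) (hev : Even d) (htwo : 2 ≤ d) {n : ℕ} (hn : 1 ≤ n)
    (hE : finrank ℝ E = d * n) {k : ℕ} (b : Basis (Fin k) ℝ (Eu E)) {r : Eu E → ℝ}
    {K : Set (Eu E)} (hr : Q.Cut r K)
    (hrad : ∀ y z : Eu E, (inner ℝ y z : ℝ) = 0 → fderiv ℝ r y z = 0) (hDR : D < R)
    {Psi : Eu E → Lam (Eu E)} (hPsi : Q.Ang Psi) {f : Eu E → ℝ} {K' : Set (Eu E)}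
    (hf : Q.Cut f K') (hK' : K' ⊆ Metric.ball (0 : Eu E) D)
    (hG : ∀ x ∈ Metric.ball (0 : Eu E) D, Om.val (ef e p) x = extd (fun z => f z • Psi z) x)
    (hB0 : ∀ y ≠ 0, Fm.pull (ContinuousLinearMap.inr ℝ (Eu E) (Eu E))
      ((KT D (Form.pull (gm e) (map_gm F) Om)).val (cc X v0) (0, y)) = Psi y) :
    II X v0 b hr hDR (KT D (Form.pull (gm e) (map_gm F) Om) *
      ((Form.pull foot map_foot Om) ^ n *
        (Form.pull (bar e D) (map_bar F D) Om) ^ (n - 1))) =
      Q.qv volume b r Psi (n - 1) * Q.qv volume b r Psi (n - 1) := by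
  obtain ⟨m, rfl⟩ : ∃ m, n = m + 1 := ⟨n - 1, by omega⟩
  have hR : 0 < R := hD.trans hDR
  have hk : finrank ℝ (Eu E) = d * (m + 1) := by
    rw [finrank_euclideanSpace, Fintype.card_fin, hE]
  have h3 := (data X v0 F hD hB hdiam hL hd h2 hev htwo hrad).main
    (convex_ball (0 : Eu E) R).isPreconnected (Metric.mem_ball_self hR) volume hr hPsi hB0 hf hK'
    (Metric.ball_subset_ball hDR.le) measurableSet_ball hG (m := m) b hk
  rw [Nat.add_sub_cancel, ← h3, II_apply]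
  refine setIntegral_congr_fun measurableSet_ball fun x hx => ?_
  have hx' : ‖x‖ < R := (mem_ball_zero_iff.1 hx).trans hDR
  have h4 : th X v0 b r (KT D (Form.pull (gm e) (map_gm F) Om) *
      ((Form.pull foot map_foot Om) ^ (m + 1) *
        (Form.pull (bar e D) (map_bar F D) Om) ^ m)) x =
      Q.phi volume b r (fun z => (KT D (Form.pull (gm e) (map_gm F) Om)).val (cc X v0) z *
        Q.pf (Om.val (ef e p) z.1) ^ (m + 1) *
        (Form.pull (bar e D) (map_bar F D) Om).val (cc X v0) z ^ m) x :=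
    Q.phi_congr volume b hr fun y hy => val_eq X v0 F (m + 1) m (z := (x, y)) hx' hy
  exact congrArg (fun a => evalForm a b) h4

/-- the same, in absolute value and in the form used by the assembly -/
theorem hQ (F : Facts e) (hD : 0 < D) (hB : InjGE e D)
    (hdiam : ∀ p q : M, dist p q ≤ D) (hL : ∀ v : UT E M, ∃ q : Pr e D, q.v = v)
    {Om : Form (dM E M)} (hd : Om.d = 0) (h2 : WF.IsDeg Om d) (hev : Even d) (htwo : 2 ≤ d) {n : ℕ} (hn : 1 ≤ n)
    (hE : finrank ℝ E = d * n) {k : ℕ} (b : Basis (Fin k) ℝ (Eu E)) {r : Eu E → ℝ}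
    {K : Set (Eu E)} (hr : Q.Cut r K)
    (hrad : ∀ y z : Eu E, (inner ℝ y z : ℝ) = 0 → fderiv ℝ r y z = 0) (hDR : D < R)
    {Psi : Eu E → Lam (Eu E)} (hPsi : Q.Ang Psi) {f : Eu E → ℝ} {K' : Set (Eu E)}
    (hf : Q.Cut f K') (hK' : K' ⊆ Metric.ball (0 : Eu E) D)
    (hG : ∀ x ∈ Metric.ball (0 : Eu E) D, Om.val (ef e p) x = extd (fun z => f z • Psi z) x)
    (hB0 : ∀ y ≠ 0, Fm.pull (ContinuousLinearMap.inr ℝ (Eu E) (Eu E))
      ((KT D (Form.pull (gm e) (map_gm F) Om)).val (cc X v0) (0, y)) = Psi y) :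
    |II X v0 b hr hDR (KT D (Form.pull (gm e) (map_gm F) Om) *
      ((Form.pull foot map_foot Om) ^ n *
        (Form.pull (fun v => gm e (v, D)) (H584.map_at (map_gm F) D) Om) ^ (n - 1)))| =
      Q.qv volume b r Psi (n - 1) ^ 2 := by
  have h3 := II_eq X v0 F hD hB hdiam hL hd h2 hev htwo hn hE b hr hrad hDR hPsi hf hK' hG hB0
  have h4 : II X v0 b hr hDR (KT D (Form.pull (gm e) (map_gm F) Om) *
      ((Form.pull foot map_foot Om) ^ n *
        (Form.pull (fun v => gm e (v, D)) (H584.map_at (map_gm F) D) Om) ^ (n - 1))) =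
      Q.qv volume b r Psi (n - 1) * Q.qv volume b r Psi (n - 1) := h3
  rw [h4, abs_mul_self, sq]

end

end Vale.Agent.P231.Q2
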