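import Vale.Agent.P231.Q.Main

/-!
# P231, stages 2 and 3: the Fubini theorem for forms of even degree `d`

`∫_{|ξ| < D} ∫_{S^N} B ∧ G^n ∧ H^(n-1) = q * q`, with `B` of degree `d - 1`, `G`, `H` of degree `d`.
-/

set_option linter.unusedSectionVars false

open Module MeasureTheory Set Filter Topology
open scoped ContDiff

namespace Vale.Agent.P231.Q2

open Fm Q

variable {E : Type*} [NormedAddCommGroup E] [NormedSpace ℝ E] [FiniteDimensional ℝ E]
variable {F : Type*} [NormedAddCommGroup F] [NormedSpace ℝ F] [FiniteDimensional ℝ F]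
  [MeasurableSpace F] [BorelSpace F]

theorem inv_even {d : ℕ} (hd : Even d) {w : Lam E} (hw : IsDeg d w) : Fm.inv w = w := by
  rw [hw.inv, hd.neg_one_pow, one_smul]

/-- the data of the block: `B`, `H` forms near the sphere bundle, `G` a form of even degree `d` on
the base -/
structure Data (d : ℕ) (U : Set E) (r : F → ℝ) (B H : E × F → Lam (E × F)) (G : E → Lam E) : Prop where
  ev : Even d
  two : 2 ≤ d
  openU : IsOpen U
  smB : ContDiffOn ℝ ∞ B (U ×ˢ {0}ᶜ)
  smH : ContDiffOn ℝ ∞ H (U ×ˢ {0}ᶜ)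
  dB : ∀ x ∈ U, ∀ y ≠ 0, extd B (x, y) = H (x, y) - pf (G x)
  dH : ∀ x ∈ U, ∀ y ≠ 0, extd H (x, y) = 0
  degG : ∀ x ∈ U, IsDeg d (G x)
  degH : ∀ x ∈ U, ∀ y ≠ 0, IsDeg d (H (x, y))
  null : ∀ x ∈ U, ∀ y ≠ 0, ∃ z : F, z ≠ 0 ∧ fderiv ℝ r y z = 0 ∧
    iprod ((0, z) : E × F) (H (x, y)) = 0

variable {d : ℕ} {U : Set E} {r : F → ℝ} {K : Set F} {B H : E × F → Lam (E × F)} {G : E → Lam E}

theorem Data.ne (D : Data d U r B H G) : d ≠ 0 := by
  have := D.two
  omega

theorem Data.aug_iprod (D : Data d U r B H G) {x : E} (hx : x ∈ U) (v : E) :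
    aug (Fm.iprod v (G x)) = 0 := by
  have h2 := D.two
  obtain ⟨c, rfl⟩ : ∃ c, d = c + 1 := ⟨d - 1, by omega⟩
  exact ((D.degG x hx).iprod v).aug (by omega)

theorem Data.mem (_ : Data d U r B H G) {x : E} (hx : x ∈ U) {y : F} (hy : y ≠ 0) :
    ((x, y) : E × F) ∈ U ×ˢ ({0}ᶜ : Set F) := ⟨hx, hy⟩

theorem Data.nhds (D : Data d U r B H G) {x : E} (hx : x ∈ U) {y : F} (hy : y ≠ 0) :
    U ×ˢ ({0}ᶜ : Set F) ∈ 𝓝 ((x, y) : E × F) :=
  (D.openU.prod isOpen_compl_singleton).mem_nhds (D.mem hx hy)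

theorem Data.diffB (D : Data d U r B H G) {x : E} (hx : x ∈ U) {y : F} (hy : y ≠ 0) :
    DifferentiableAt ℝ B (x, y) := (D.smB.contDiffAt (D.nhds hx hy)).differentiableAt (by simp)

theorem Data.diffH (D : Data d U r B H G) {x : E} (hx : x ∈ U) {y : F} (hy : y ≠ 0) :
    DifferentiableAt ℝ H (x, y) := (D.smH.contDiffAt (D.nhds hx hy)).differentiableAt (by simp)

/-- the exterior derivative of `B H^m` -/
theorem Data.extd_BH (D : Data d U r B H G) (m : ℕ) {x : E} (hx : x ∈ U) {y : F} (hy : y ≠ 0) :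
    extd (fun z => B z * H z ^ m) (x, y) = H (x, y) ^ (m + 1) - H (x, y) ^ m * pf (G x) := by
  have h1 : extd (fun z => B z * H z ^ m) (x, y) = _ :=
    extd_mul (D.diffB hx hy) ((D.diffH hx hy).fun_pow m)
  have h2 : pf (F := F) (G x) * H (x, y) ^ m = H (x, y) ^ m * pf (G x) :=
    mul_comm_of_even (inv_even D.ev ((D.degG x hx).pull _)) _
  rw [h1, extd_pow_closed (D.diffH hx hy) (D.dH x hx y hy), mul_zero, add_zero, D.dB x hx y hy,
    sub_mul, h2, ← pow_succ']

/-- the degree zero part of the fibre integral is locally constant -/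
theorem Data.aug_phi (D : Data d U r B H G) (μ : Measure F) [μ.IsAddHaarMeasure] {k : ℕ}
    (b : Basis (Fin k) ℝ F) (hr : Cut r K) (m : ℕ) {x : E} (hx : x ∈ U) :
    HasFDerivAt (fun x => aug (phi μ b r (fun z => B z * H z ^ m) x)) (0 : E →L[ℝ] ℝ) x := by
  have hw : ContDiffOn ℝ ∞ (fun z => B z * H z ^ m) (U ×ˢ {0}ᶜ) := D.smB.mul (D.smH.pow m)
  have hd : DifferentiableAt ℝ (phi μ b r fun z => B z * H z ^ m) x :=
    ((contDiffOn_phi μ b hr D.openU hw).contDiffAt (D.openU.mem_nhds hx)).differentiableAt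
      (by simp)
  refine hasFDerivAt_aug hd fun v => ?_
  have h1 := phi_extd μ b hr D.openU hw hx
  have h2 : extd (phi μ b r fun z => B z * H z ^ m) x =
      -((-1 : ℝ) ^ k • phi μ b r (extd fun z => B z * H z ^ m) x) := by
    rw [h1, smul_neg, neg_neg, smul_smul, ← pow_add, ← two_mul, pow_mul]
    norm_num
  rw [h2, map_neg, map_smul, map_neg, map_smul]
  -- the two parts
  have h3 : phi μ b r (extd fun z => B z * H z ^ m) x =
      phi μ b r (fun z => H z ^ (m + 1) - H z ^ m * pf (G z.1)) x :=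
    phi_congr μ b hr fun y hy => D.extd_BH m hx hy
  have hH1 : ContDiffOn ℝ ∞ (fun z => H z ^ (m + 1)) (U ×ˢ {0}ᶜ) := D.smH.pow _
  have hH2 : ContDiffOn ℝ ∞ (fun z => H z ^ m) (U ×ˢ {0}ᶜ) := D.smH.pow _
  have h4 : aug (iprod v (phi μ b r (fun z => H z ^ (m + 1)) x)) = 0 := by
    have h5 := ContinuousLinearMap.integral_comp_comm (ai v)
      (integrable_slice μ b hr D.openU hH1 hx)
    change ai v (∫ y, slice b (cw r (fun z => H z ^ (m + 1)) (x, y)) ∂μ) = 0
    rw [← h5, integral_eq_zero_of_ae]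
    refine Eventually.of_forall fun y => ?_
    change aug (iprod v (slice b (cw r (fun z => H z ^ (m + 1)) (x, y)))) = 0
    rcases eq_or_ne y 0 with rfl | hy
    · rw [(cw_near hr _ x).eq_of_nhds]
      simp
    · obtain ⟨z, hz, hz1, hz2⟩ := D.null x hx y hy
      refine aug_iprod_slice_eq_zero b v hz ?_
      refine iprod_mul_eq_zero ?_ (iprod_pow_eq_zero hz2 _)
      rw [ps, pull_iprod, dR]
      have : (ContinuousLinearMap.snd ℝ E F) ((0, z) : E × F) = z := rfl
      rw [this, iprod_dx, hz1, map_zero, map_zero]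
  have h6 : aug (iprod v (phi μ b r (fun z => H z ^ m * pf (G z.1)) x)) = 0 := by
    rw [phi_mul_pf μ b hr D.openU hH2 G hx, iprod_mul, map_add, map_mul, map_mul,
      (D.degG x hx).aug D.ne, mul_zero, zero_add, D.aug_iprod hx v, mul_zero]
  have h7 : phi μ b r (fun z => H z ^ (m + 1) - H z ^ m * pf (G z.1)) x =
      phi μ b r (fun z => H z ^ (m + 1)) x - phi μ b r (fun z => H z ^ m * pf (G z.1)) x := by
    have i1 := integrable_slice μ b hr D.openU hH1 hx
    have i2 : Integrable (fun y => slice b (cw r (fun z => H z ^ m * pf (G z.1)) (x, y))) μ := by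
      have i3 := (integrable_slice μ b hr D.openU hH2 hx)
      have i4 := ((ContinuousLinearMap.mul ℝ (Lam E)).flip (G x)).integrable_comp i3
      refine i4.congr (Eventually.of_forall fun y => ?_)
      change slice b (cw r (fun z => H z ^ m) (x, y)) * G x =
        slice b (ps (dR r y) * (H (x, y) ^ m * pf (G x)))
      rw [← mul_assoc, slice_mul_pf]
      rfl
    have i5 := integral_sub i1 i2
    change ∫ y, slice b (cw r (fun z => H z ^ (m + 1) - H z ^ m * pf (G z.1)) (x, y)) ∂μ = _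
    refine Eq.trans ?_ i5
    refine integral_congr_ae (Eventually.of_forall fun y => ?_)
    change slice b (ps (dR r y) * (H (x, y) ^ (m + 1) - H (x, y) ^ m * pf (G x))) =
      slice b (ps (dR r y) * H (x, y) ^ (m + 1)) -
        slice b (ps (dR r y) * (H (x, y) ^ m * pf (G x)))
    rw [mul_sub, map_sub]
  rw [h3, h7, map_sub, map_sub, h4, h6, sub_zero, smul_zero, neg_zero]

/-- the degree zero part of the fibre integral is constant -/
theorem Data.aug_phi_const (D : Data d U r B H G) (μ : Measure F) [μ.IsAddHaarMeasure] {k : ℕ}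
    (b : Basis (Fin k) ℝ F) (hr : Cut r K) (m : ℕ) (hU : IsPreconnected U) {x y : E} (hx : x ∈ U)
    (hy : y ∈ U) : aug (phi μ b r (fun z => B z * H z ^ m) x) =
      aug (phi μ b r (fun z => B z * H z ^ m) y) := by
  refine D.openU.is_const_of_fderiv_eq_zero (𝕜 := ℝ)
    (f := fun x => aug (phi μ b r (fun z => B z * H z ^ m) x)) hU ?_ ?_ hx hy
  · intro z hz
    exact (D.aug_phi μ b hr m hz).differentiableAt.differentiableWithinAt
  · intro z hz
    exact (D.aug_phi μ b hr m hz).fderiv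


section Fibre

variable {d : ℕ} {U : Set E} {r : F → ℝ} {K : Set F} {B H : E × F → Lam (E × F)} {G : E → Lam E}

/-- restriction of the data to one fibre -/
theorem Data.pull_inr_H (D : Data d U r B H G) {x : E} (hx : x ∈ U) {ψ : F → Lam F}
    (hψ : ∀ y ≠ 0, pull (ContinuousLinearMap.inr ℝ E F) (B (x, y)) = ψ y) {y : F} (hy : y ≠ 0) :
    pull (ContinuousLinearMap.inr ℝ E F) (H (x, y)) = extd ψ y := by
  have hf : ∀ z, HasFDerivAt (fun z : F => ((x, z) : E × F)) (ContinuousLinearMap.inr ℝ E F) z :=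
    fun z => hasFDerivAt_prodMk_right x z
  have h1 : ψ =ᶠ[𝓝 y] pb (fun z : F => ((x, z) : E × F)) B := by
    filter_upwards [isOpen_compl_singleton.mem_nhds hy] with z hz
    rw [pb, (hf z).fderiv, hψ z hz]
  have h2 : ContDiffAt ℝ 2 (fun z : F => ((x, z) : E × F)) y :=
    contDiffAt_const.prodMk contDiffAt_id
  rw [extd_congr h1, extd_pb h2 (D.diffB hx hy), pb, (hf y).fderiv, D.dB x hx y hy, map_sub,
    pull_inr_pf, (D.degG x hx).aug D.ne, map_zero, sub_zero]

theorem Data.aug_phi_value (D : Data d U r B H G) (μ : Measure F) [μ.IsAddHaarMeasure] {k : ℕ}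
    (b : Basis (Fin k) ℝ F) (hr : Cut r K) (m : ℕ) {x : E} (hx : x ∈ U) {ψ : F → Lam F}
    (hψ : ∀ y ≠ 0, pull (ContinuousLinearMap.inr ℝ E F) (B (x, y)) = ψ y) :
    aug (phi μ b r (fun z => B z * H z ^ m) x) =
      ∫ y, evalForm (dR r y * (ψ y * extd ψ y ^ m)) b ∂μ := by
  have hw : ContDiffOn ℝ ∞ (fun z => B z * H z ^ m) (U ×ˢ {0}ᶜ) := D.smB.mul (D.smH.pow m)
  have h1 := ContinuousLinearMap.integral_comp_comm (augL (E := E))
    (integrable_slice μ b hr D.openU hw hx)
  change augL (∫ y, slice b (cw r (fun z => B z * H z ^ m) (x, y)) ∂μ) = _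
  rw [← h1]
  refine integral_congr_ae (Eventually.of_forall fun y => ?_)
  change aug (slice b (cw r (fun z => B z * H z ^ m) (x, y))) = _
  rcases eq_or_ne y 0 with rfl | hy
  · have h2 : dR r (0 : F) = 0 := hr.dR_near.self_of_nhds
    rw [(cw_near hr _ x).eq_of_nhds]
    simp only [h2, zero_mul]
    rw [map_zero, map_zero]
    exact (map_zero (evalL (b : Fin k → F))).symm
  · rw [aug_slice, cw, map_mul, map_mul, map_pow, pull_inr_ps, hψ y hy, D.pull_inr_H hx hψ hy]

end Fibre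


end Vale.Agent.P231.Q2
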